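import Vale.Agent.P266.Recursion
import Vale.Agent.P266.Irred

/-!
P266: the ring of global functions, its filtration by order in `T`, lifts of leading terms.
-/

namespace P266

set_option maxSynthPendingDepth 4

open Finset

noncomputable section

/-- The regular elements as a submodule. -/
def regSub : Submodule ℂ K where
  carrier := {f | Reg f}
  add_mem' := Reg.add
  zero_mem' := reg_zero
  smul_mem' c _ h := Reg.smul c h

theorem mem_regSub {f : K} : f ∈ regSub ↔ Reg f := Iff.rfl

theorem reg_one : Reg (1 : K) := fun p k hk => by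
  show (1 : LaurentSeries ℂ).coeff k = 0
  rw [HahnSeries.coeff_one, if_neg (by omega)]

/-- Regular sections of degree `n`. -/
def RG (n : ℕ) : Submodule ℂ K := G (n : ℤ) ⊓ regSub

theorem mem_RG {n : ℕ} {f : K} : f ∈ RG n ↔ f ∈ G (n : ℤ) ∧ Reg f := Iff.rfl

theorem reg_mono (i j k : ℕ) : Reg (mono i j (k : ℤ)) := by
  have hx : ∀ m, Reg (xK ^ m) ∧ Reg (yK ^ m) := fun m => by
    induction m with
    | zero => simpa using reg_one
    | succ m ih => rw [pow_succ, pow_succ]; exact ⟨ih.1.mul reg_xK, ih.2.mul reg_yK⟩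
  refine ((hx i).1.mul (hx j).2).mul fun p m hm => ?_
  show (HahnSeries.single (k : ℤ) (1 : ℂ)).coeff m = 0
  exact HahnSeries.coeff_single_of_ne (by omega)

theorem mono_mem_RG {i j k n : ℕ} (h : i + j + k ≤ n) : mono i j (k : ℤ) ∈ RG n :=
  ⟨mono_mem_G (by omega), reg_mono i j k⟩

theorem wpow_eq_mono (k : ℤ) : wpow k = mono 0 0 k := by simp [mono]

theorem wpow_add (a b : ℤ) : wpow (a + b) = wpow a * wpow b := by
  funext p
  simp [wpow, HahnSeries.single_mul_single]

theorem one_mem_RG (n : ℕ) : (1 : K) ∈ RG n :=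
  ⟨one_mem_G (by omega), reg_one⟩

theorem RG_mul {a b : ℕ} {f g : K} (hf : f ∈ RG a) (hg : g ∈ RG b) : f * g ∈ RG (a + b) :=
  ⟨by push_cast; exact mul_mem_G hf.1 hg.1, hf.2.mul hg.2⟩

/-- In degree at least `21` everything is a combination of `z^7` and `w^7`. -/
theorem RG_split {n : ℕ} (hn : 21 ≤ n) {g : K} (hg : g ∈ RG n) :
    ∃ g₁ ∈ RG (n - 7), ∃ g₂ ∈ RG (n - 7), g = g₁ + wpow 7 * g₂ := by
  obtain ⟨c, hc0, hc⟩ := reg_mem_G hg.1 hg.2
  suffices h : g ∈ RG (n - 7) ⊔ (RG (n - 7)).map (LinearMap.mulLeft ℂ (wpow 7)) by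
    obtain ⟨g₁, h₁, z, hz, e⟩ := Submodule.mem_sup.1 h
    obtain ⟨g₂, h₂, rfl⟩ := Submodule.mem_map.1 hz
    exact ⟨g₁, h₁, g₂, h₂, e.symm⟩
  rw [hc]
  refine Submodule.sum_mem _ fun i _ => Submodule.sum_mem _ fun j _ => Submodule.sum_mem _
    fun k _ => ?_
  rcases eq_or_ne (c i j k) 0 with h0 | h0
  · rw [h0]
    simp
  refine Submodule.smul_mem _ _ ?_
  have hle : (i : ℕ) + j + k ≤ n := by
    by_contra hlt
    exact h0 (hc0 i j k (by omega))
  by_cases hk : k < 7
  · exact Submodule.mem_sup_left (mono_mem_RG (by omega))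
  · refine Submodule.mem_sup_right ⟨mono i j ((k - 7 : ℕ) : ℤ), mono_mem_RG (by omega), ?_⟩
    rw [LinearMap.mulLeft_apply, mono, mono,
      show (k : ℤ) = 7 + ((k - 7 : ℕ) : ℤ) by omega, wpow_add]
    ring

theorem glob_mul {f g : S} (hf : Glob f) (hg : Glob g) : Glob (f * g) := fun n => by
  rw [PowerSeries.coeff_mul]
  refine Submodule.sum_mem _ fun ij hij => ?_
  have h := mul_mem_G (hf ij.1) (hg ij.2)
  rw [Finset.HasAntidiagonal.mem_antidiagonal] at hij
  rwa [show ((ij.1 : ℤ) + (ij.2 : ℤ)) = (n : ℤ) by omega] at h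

theorem regS_mul {f g : S} (hf : RegS f) (hg : RegS g) : RegS (f * g) := fun n => by
  rw [PowerSeries.coeff_mul]
  exact reg_sum _ _ fun ij _ => (hf ij.1).mul (hg ij.2)

theorem coeff_algebraMap_S (c : ℂ) (n : ℕ) :
    PowerSeries.coeff n (algebraMap ℂ S c) = if n = 0 then c • (1 : K) else 0 := by
  rw [PowerSeries.algebraMap_apply, PowerSeries.coeff_C, Algebra.algebraMap_eq_smul_one]

/-- The ring of global functions. -/
def Model.ring (M : Model) : Subalgebra ℂ S where
  carrier := {f | Glob f ∧ RegS (M.tau f)}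
  mul_mem' := fun {f g} hf hg => ⟨glob_mul hf.1 hg.1, by rw [map_mul]; exact regS_mul hf.2 hg.2⟩
  add_mem' := fun {f g} hf hg =>
    ⟨fun n => by rw [map_add]; exact Submodule.add_mem _ (hf.1 n) (hg.1 n),
      fun n => by rw [map_add, map_add]; exact (hf.2 n).add (hg.2 n)⟩
  algebraMap_mem' := fun c => by
    refine ⟨fun n => ?_, fun n => ?_⟩
    · rw [coeff_algebraMap_S]
      split_ifs with h
      · exact Submodule.smul_mem _ _ (one_mem_G (by omega))
      · exact Submodule.zero_mem _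
    · rw [AlgEquiv.commutes, coeff_algebraMap_S]
      split_ifs
      · exact Reg.smul c (one_mem_RG 0).2
      · exact reg_zero

theorem low_succ {n : ℕ} {f : S} (hf : Low n f) (h : PowerSeries.coeff n f = 0) :
    Low (n + 1) f := by
  rw [low_S_iff] at hf ⊢
  intro m hm
  rcases Nat.lt_succ_iff_lt_or_eq.1 hm with h' | rfl
  · exact hf m h'
  · exact h

theorem exists_lowest {f : S} (hf : f ≠ 0) :
    ∃ n, Low n f ∧ PowerSeries.coeff n f ≠ 0 := by
  classical
  have h : ∃ n, PowerSeries.coeff n f ≠ 0 := PowerSeries.exists_coeff_ne_zero_iff_ne_zero.2 hf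
  exact ⟨Nat.find h, low_S_iff.2 fun m hm => not_not.1 (Nat.find_min h hm), Nat.find_spec h⟩

theorem low_eq_zero {f : S} (h : ∀ n, Low n f) : f = 0 :=
  PowerSeries.ext fun n => by rw [map_zero]; exact low_S_iff.1 (h (n + 1)) n (by omega)

/-- The coefficient of an inverse lies where the coefficients of the element do. -/
theorem coeff_inverse_mem (P : ℕ → Submodule ℂ K) (h1 : (1 : K) ∈ P 0)
    (hmul : ∀ {a b : ℕ} {x y : K}, x ∈ P a → y ∈ P b → x * y ∈ P (a + b))
    {f h : S} (hfh : f * h = 1) {c : ℂ} (hc : c ≠ 0) (h0 : PowerSeries.coeff 0 f = c • (1 : K))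
    (hf : ∀ n, PowerSeries.coeff n f ∈ P n) (n : ℕ) : PowerSeries.coeff n h ∈ P n := by
  induction n using Nat.strong_induction_on with
  | _ n ih =>
    have e := congrArg (PowerSeries.coeff n) hfh
    rw [PowerSeries.coeff_mul, PowerSeries.coeff_one,
      Finset.Nat.sum_antidiagonal_eq_sum_range_succ
        (fun i j => PowerSeries.coeff i f * PowerSeries.coeff j h), sum_range_succ'] at e
    simp only [h0, smul_mul_assoc, one_mul, Nat.sub_zero] at e
    have e' : PowerSeries.coeff n h = c⁻¹ • ((if n = 0 then (1 : K) else 0)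
        - ∑ k ∈ range n, PowerSeries.coeff (k + 1) f * PowerSeries.coeff (n - (k + 1)) h) := by
      rw [← e, add_sub_cancel_left, smul_smul, inv_mul_cancel₀ hc]
      exact (one_smul ℂ _).symm
    rw [e']
    refine Submodule.smul_mem _ _ (Submodule.sub_mem _ ?_ (Submodule.sum_mem _ fun k hk => ?_))
    · split_ifs with hn
      · subst hn; exact h1
      · exact Submodule.zero_mem _
    · have hk' := mem_range.1 hk
      have := hmul (hf (k + 1)) (ih (n - (k + 1)) (by omega))
      rwa [Nat.add_sub_cancel' (by omega)] at this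

namespace Model

variable (M : Model)

theorem glob_coeff {f : S} (hf : f ∈ M.ring) (n : ℕ) : PowerSeries.coeff n f ∈ G (n : ℤ) := hf.1 n

theorem low_tau {n : ℕ} {f : S} (h : Low n f) : Low n (M.tau f) := by
  have := ((M.tau_low n f h).mono (Nat.le_succ n)).add h
  rwa [sub_add_cancel] at this

theorem coeff_tau {n : ℕ} {f : S} (h : Low n f) :
    PowerSeries.coeff n (M.tau f) = PowerSeries.coeff n f := by
  have := low_S_iff.1 (M.tau_low n f h) n (by omega)
  rwa [map_sub, sub_eq_zero] at this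

/-- Coefficients of `tau f` below `n` depend only on those of `f`. -/
theorem coeff_tau_congr {n m : ℕ} {f g : S} (h : Low n (f - g)) (hm : m < n) :
    PowerSeries.coeff m (M.tau f) = PowerSeries.coeff m (M.tau g) := by
  have := low_S_iff.1 (M.low_tau h) m hm
  rwa [map_sub, map_sub, sub_eq_zero] at this

/-- The lowest term of a global function is a regular section. -/
theorem lowest_reg {n : ℕ} {f : S} (hf : f ∈ M.ring) (h : Low n f) :
    Reg (PowerSeries.coeff n f) := by
  rw [← M.coeff_tau h]; exact hf.2 n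

theorem lead_mem_RG {n : ℕ} {f : S} (hf : f ∈ M.ring) (h : Low n f) :
    PowerSeries.coeff n f ∈ RG n := ⟨hf.1 n, M.lowest_reg hf h⟩

/-- A limit of global functions is global. -/
theorem mem_ring_of_approx {f : S} (h : ∀ N, ∃ g ∈ M.ring, Low N (f - g)) : f ∈ M.ring := by
  refine ⟨fun n => ?_, fun n => ?_⟩
  · obtain ⟨g, hg, hl⟩ := h (n + 1)
    have := low_S_iff.1 hl n (by omega)
    rw [map_sub, sub_eq_zero] at this
    rw [this]; exact hg.1 n
  · obtain ⟨g, hg, hl⟩ := h (n + 1)
    rw [M.coeff_tau_congr hl (by omega)]; exact hg.2 n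

/-- Every regular section of degree at least `7` is a leading term. -/
theorem exists_lift {n : ℕ} (hn : 7 ≤ n) {g : K} (hg : g ∈ G (n : ℤ)) (hr : Reg g) :
    ∃ f ∈ M.ring, Low n f ∧ PowerSeries.coeff n f = g := by
  classical
  have tl : ∀ (k : ℕ) (t : K), ∃ h ∈ G ((n + k + 1 : ℕ) : ℤ), Reg (h + t) := fun k t =>
    tails (by omega) t
  choose T hT hTr using tl
  let F : ℕ → S := fun k => Nat.rec (PowerSeries.monomial n g)
    (fun k P => P + PowerSeries.monomial (n + k + 1)
      (T k (PowerSeries.coeff (n + k + 1) (M.tau P)))) k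
  have hF : ∀ k, F (k + 1) = F k + PowerSeries.monomial (n + k + 1)
      (T k (PowerSeries.coeff (n + k + 1) (M.tau (F k)))) := fun k => rfl
  have hstep : ∀ k, Low (n + k + 1) (F (k + 1) - F k) := fun k => by
    rw [hF, add_sub_cancel_left]; exact low_monomial _ _
  have hlow : ∀ k, Low n (F k) ∧ PowerSeries.coeff n (F k) = g ∧ Glob (F k) ∧
      ∀ m ≤ n + k, Reg (PowerSeries.coeff m (M.tau (F k))) := by
    intro k
    induction k with
    | zero =>
      refine ⟨low_monomial _ _, PowerSeries.coeff_monomial_same _ _, fun m => ?_, fun m hm => ?_⟩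
      · show PowerSeries.coeff m (PowerSeries.monomial n g) ∈ _
        rw [PowerSeries.coeff_monomial]
        split_ifs with h
        · subst h; exact hg
        · exact Submodule.zero_mem _
      · show Reg (PowerSeries.coeff m (M.tau (PowerSeries.monomial n g)))
        rcases Nat.lt_or_ge m n with h | h
        · rw [low_S_iff.1 (M.low_tau (low_monomial n g)) m h]; exact reg_zero
        · obtain rfl : m = n := by omega
          rw [M.coeff_tau (low_monomial m g), PowerSeries.coeff_monomial_same]; exact hr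
    | succ k ih =>
      obtain ⟨h1, h2, h3, h4⟩ := ih
      refine ⟨?_, ?_, fun m => ?_, fun m hm => ?_⟩
      · rw [hF]; exact h1.add ((low_monomial _ _).mono (by omega))
      · rw [hF, map_add, h2, PowerSeries.coeff_monomial, if_neg (by omega), add_zero]
      · rw [hF, map_add, PowerSeries.coeff_monomial]
        refine Submodule.add_mem _ (h3 m) ?_
        split_ifs with h
        · subst h; exact hT _ _
        · exact Submodule.zero_mem _
      · rw [hF, map_add, map_add]
        rcases Nat.lt_or_ge m (n + k + 1) with h | h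
        · rw [low_S_iff.1 (M.low_tau (low_monomial (n + k + 1) _)) m h, add_zero]
          exact h4 m (by omega)
        · obtain rfl : m = n + k + 1 := by omega
          rw [M.coeff_tau (low_monomial (n + k + 1) _), PowerSeries.coeff_monomial_same, add_comm]
          exact hTr _ _
  let f : S := PowerSeries.mk fun m => PowerSeries.coeff m (F m)
  have hst : ∀ k d, Low (k + 1) (F (k + d) - F k) := by
    intro k d
    induction d with
    | zero => simpa using low_S_iff.2 fun m _ => map_zero (PowerSeries.coeff (R := K) m)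
    | succ d ih =>
      have h' := ((hstep (k + d)).mono (show k + 1 ≤ n + (k + d) + 1 by omega)).add ih
      rwa [sub_add_sub_cancel] at h'
  have happ : ∀ k, Low (k + 1) (f - F k) := fun k => low_S_iff.2 fun m hm => by
    rw [map_sub, PowerSeries.coeff_mk, sub_eq_zero]
    have h' := low_S_iff.1 (hst m (k - m)) m (by omega)
    rw [map_sub, sub_eq_zero, Nat.add_sub_cancel' (by omega)] at h'
    exact h'.symm
  refine ⟨f, ⟨fun m => ?_, fun m => ?_⟩, low_S_iff.2 fun m hm => ?_, ?_⟩
  · show PowerSeries.coeff m f ∈ _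
    rw [PowerSeries.coeff_mk]; exact (hlow m).2.2.1 m
  · rw [M.coeff_tau_congr (happ m) (by omega)]; exact (hlow m).2.2.2 m (by omega)
  · rw [PowerSeries.coeff_mk]; exact low_S_iff.1 (hlow m).1 m hm
  · rw [PowerSeries.coeff_mk]; exact (hlow n).2.1

/-- The ideals of the filtration by order in `T`. -/
def J (n : ℕ) : Ideal M.ring where
  carrier := {f | Low n (f : S)}
  add_mem' := fun {a b} ha hb => by simpa using Low.add ha hb
  zero_mem' := low_S_iff.2 fun m _ => by simp
  smul_mem' := fun a x hx => by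
    have := low_mul (low_zero (a : S)) hx
    rw [zero_add] at this
    simpa using this

theorem mem_J {n : ℕ} {f : M.ring} : f ∈ M.J n ↔ Low n (f : S) := Iff.rfl

theorem J_anti {m n : ℕ} (h : m ≤ n) : M.J n ≤ M.J m := fun _ hf => Low.mono hf h

theorem mem_J_zero (f : M.ring) : f ∈ M.J 0 := low_zero _

theorem J_mul {a b : ℕ} {f g : M.ring} (hf : f ∈ M.J a) (hg : g ∈ M.J b) :
    f * g ∈ M.J (a + b) := low_mul hf hg

theorem eq_zero_of_mem_J {f : M.ring} (h : ∀ n, f ∈ M.J n) : f = 0 := Subtype.ext (low_eq_zero h)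

/-- Limits exist. -/
theorem exists_limit (F : ℕ → M.ring) (h : ∀ k, F (k + 1) - F k ∈ M.J k) :
    ∃ f : M.ring, ∀ k, f - F k ∈ M.J k := by
  have hd : ∀ k d, F (k + d) - F k ∈ M.J k := by
    intro k d
    induction d with
    | zero => simp
    | succ d ih =>
      have h' := Ideal.add_mem _ (M.J_anti (by omega) (h (k + d))) ih
      rwa [sub_add_sub_cancel] at h'
  let f : S := PowerSeries.mk fun m => PowerSeries.coeff m (F (m + 1) : S)
  have happ : ∀ k, Low k (f - (F k : S)) := fun k => low_S_iff.2 fun m hm => by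
    have h' := low_S_iff.1 (hd (m + 1) (k - (m + 1))) m (by omega)
    rw [Nat.add_sub_cancel' (by omega), AddSubgroupClass.coe_sub, map_sub, sub_eq_zero] at h'
    rw [map_sub, PowerSeries.coeff_mk, h', sub_self]
  exact ⟨⟨f, M.mem_ring_of_approx fun N => ⟨_, (F N).2, happ N⟩⟩, happ⟩

/-- The constant term of a global function. -/
theorem exists_const (f : M.ring) : ∃ c : ℂ, PowerSeries.coeff 0 (f : S) = c • (1 : K) :=
  reg_G_zero (by simpa using f.2.1 0) (M.lowest_reg f.2 (low_zero _))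

theorem isUnit_of_const {f : M.ring} {c : ℂ} (hc : c ≠ 0)
    (h0 : PowerSeries.coeff 0 (f : S) = c • (1 : K)) : IsUnit f := by
  have hu : IsUnit (f : S) := by
    rw [PowerSeries.isUnit_iff_constantCoeff, ← PowerSeries.coeff_zero_eq_constantCoeff_apply, h0,
      ← Algebra.algebraMap_eq_smul_one]
    exact (isUnit_iff_ne_zero.2 hc).map _
  obtain ⟨h, hh⟩ := hu.exists_right_inv
  have hmem : h ∈ M.ring := by
    refine ⟨coeff_inverse_mem (fun n => G (n : ℤ)) (one_mem_G le_rfl) ?_ hh hc h0 f.2.1,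
      fun n => coeff_inverse_mem (fun _ => regSub) (one_mem_RG 0).2
        (fun hx hy => mem_regSub.2 (Reg.mul hx hy))
        (f := M.tau f) (h := M.tau h) (by rw [← map_mul, hh, map_one]) hc
        (by rw [M.coeff_tau (low_zero _), h0]) f.2.2 n⟩
    intro a b x y hx hy
    push_cast
    exact mul_mem_G hx hy
  exact isUnit_iff_exists_inv.2 ⟨⟨h, hmem⟩, Subtype.ext hh⟩

instance : Nontrivial M.ring := ⟨0, 1, fun h => zero_ne_one (congrArg Subtype.val h)⟩

theorem not_isUnit_of_mem_J_one {f : M.ring} (h : f ∈ M.J 1) : ¬ IsUnit f := fun hu => by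
  obtain ⟨g, hg⟩ := hu.exists_right_inv
  have h' := low_S_iff.1 (M.J_mul h (M.mem_J_zero g)) 0 (by omega)
  rw [hg] at h'
  simp at h'

theorem mem_J_one_of_not_isUnit {f : M.ring} (h : ¬ IsUnit f) : f ∈ M.J 1 := by
  obtain ⟨c, hc⟩ := M.exists_const f
  rcases eq_or_ne c 0 with rfl | h0
  · refine low_succ (low_zero _) ?_
    rw [hc]; exact zero_smul ℂ (1 : K)
  · exact absurd (M.isUnit_of_const h0 hc) h

/-- The ring is local. -/
instance isLocalRing : IsLocalRing M.ring :=
  IsLocalRing.of_nonunits_add fun _ _ ha hb => M.not_isUnit_of_mem_J_one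
    (Ideal.add_mem _ (M.mem_J_one_of_not_isUnit ha) (M.mem_J_one_of_not_isUnit hb))

theorem maximalIdeal_eq : IsLocalRing.maximalIdeal M.ring = M.J 1 := by
  ext f
  rw [IsLocalRing.mem_maximalIdeal, mem_nonunits_iff]
  exact ⟨M.mem_J_one_of_not_isUnit, M.not_isUnit_of_mem_J_one⟩

theorem maximalIdeal_pow_le (N : ℕ) : IsLocalRing.maximalIdeal M.ring ^ N ≤ M.J N := by
  induction N with
  | zero => exact fun f _ => M.mem_J_zero f
  | succ N ih =>
    rw [pow_succ, Ideal.mul_le]
    intro r hr s hs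
    exact M.J_mul (ih hr) (M.maximalIdeal_eq ▸ hs)

theorem residue_surjective :
    Function.Surjective (algebraMap ℂ (IsLocalRing.ResidueField M.ring)) := by
  intro z
  obtain ⟨f, rfl⟩ := IsLocalRing.residue_surjective z
  obtain ⟨c, hc⟩ := M.exists_const f
  refine ⟨c, ?_⟩
  rw [IsScalarTower.algebraMap_apply ℂ M.ring (IsLocalRing.ResidueField M.ring)]
  refine Ideal.Quotient.eq.2 ?_
  rw [M.maximalIdeal_eq]
  refine low_succ (low_zero _) ?_
  rw [AddSubgroupClass.coe_sub, map_sub, hc, Subalgebra.coe_algebraMap, coeff_algebraMap_S,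
    if_pos rfl, sub_self]

instance : NoZeroDivisors M.ring where
  eq_zero_or_eq_zero_of_mul_eq_zero := fun {a b} hab => by
    by_contra h
    rw [not_or] at h
    obtain ⟨m, hma, ha⟩ := exists_lowest (f := (a : S)) fun e => h.1 (Subtype.ext e)
    obtain ⟨n, hnb, hb⟩ := exists_lowest (f := (b : S)) fun e => h.2 (Subtype.ext e)
    have h' := coeff_mul_low hma hnb
    rw [← Subalgebra.coe_mul, hab] at h'
    simp only [ZeroMemClass.coe_zero, map_zero] at h'
    let p : Pt := (0, 0)
    have hp := congrFun h' p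
    rcases mul_eq_zero.1 hp.symm with hp | hp
    · exact ha (eq_zero_of_branch (a.2.1 m) (M.lowest_reg a.2 hma) hp)
    · exact hb (eq_zero_of_branch (b.2.1 n) (M.lowest_reg b.2 hnb) hp)

/-- The ring is a domain. -/
instance isDomain : IsDomain M.ring := NoZeroDivisors.to_isDomain _

/-- A lift of `z^7`. -/
def Phi : M.ring :=
  ⟨(M.exists_lift le_rfl (one_mem_RG 7).1 (one_mem_RG 7).2).choose,
    (M.exists_lift le_rfl (one_mem_RG 7).1 (one_mem_RG 7).2).choose_spec.1⟩

theorem Phi_spec : Low 7 (M.Phi : S) ∧ PowerSeries.coeff 7 (M.Phi : S) = 1 :=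
  (M.exists_lift le_rfl (one_mem_RG 7).1 (one_mem_RG 7).2).choose_spec.2

theorem wpow7_mem : wpow 7 ∈ RG 7 := by
  rw [wpow_eq_mono]; exact mono_mem_RG (k := 7) (by omega)

/-- A lift of `w^7`. -/
def Psi : M.ring :=
  ⟨(M.exists_lift le_rfl wpow7_mem.1 wpow7_mem.2).choose,
    (M.exists_lift le_rfl wpow7_mem.1 wpow7_mem.2).choose_spec.1⟩

theorem Psi_spec : Low 7 (M.Psi : S) ∧ PowerSeries.coeff 7 (M.Psi : S) = wpow 7 :=
  (M.exists_lift le_rfl wpow7_mem.1 wpow7_mem.2).choose_spec.2

theorem step {n : ℕ} (hn : 21 ≤ n) {f : M.ring} (hf : f ∈ M.J n) :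
    ∃ A ∈ M.J (n - 7), ∃ B ∈ M.J (n - 7), f - (M.Phi * A + M.Psi * B) ∈ M.J (n + 1) := by
  obtain ⟨g₁, h₁, g₂, h₂, e⟩ := RG_split hn (M.lead_mem_RG f.2 hf)
  obtain ⟨A, hA, hA1, hA2⟩ := M.exists_lift (show 7 ≤ n - 7 by omega) h₁.1 h₁.2
  obtain ⟨B, hB, hB1, hB2⟩ := M.exists_lift (show 7 ≤ n - 7 by omega) h₂.1 h₂.2
  refine ⟨⟨A, hA⟩, hA1, ⟨B, hB⟩, hB1, low_succ ?_ ?_⟩
  · have h := (low_mul M.Phi_spec.1 hA1).add (low_mul M.Psi_spec.1 hB1)
    rw [show 7 + (n - 7) = n by omega] at h
    simpa using Low.sub hf h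
  · have h3 := coeff_mul_low M.Phi_spec.1 hA1
    have h4 := coeff_mul_low M.Psi_spec.1 hB1
    rw [show 7 + (n - 7) = n by omega] at h3 h4
    simp only [AddSubgroupClass.coe_sub, Subalgebra.coe_add, Subalgebra.coe_mul, map_sub, map_add,
      h3, h4, M.Phi_spec.2, M.Psi_spec.2, hA2, hB2, one_mul, e, sub_self]

/-- `J n = Phi J (n-7) + Psi J (n-7)` for `n ≥ 21`. -/
theorem J_split {n : ℕ} (hn : 21 ≤ n) {f : M.ring} (hf : f ∈ M.J n) :
    ∃ A ∈ M.J (n - 7), ∃ B ∈ M.J (n - 7), f = M.Phi * A + M.Psi * B := by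
  classical
  have hs : ∀ (k : ℕ) (r : M.ring), ∃ A B : M.ring, r ∈ M.J (n + k) →
      A ∈ M.J (n + k - 7) ∧ B ∈ M.J (n + k - 7) ∧
        r - (M.Phi * A + M.Psi * B) ∈ M.J (n + k + 1) := fun k r => by
    by_cases h : r ∈ M.J (n + k)
    · obtain ⟨A, h1, B, h2, h3⟩ := M.step (by omega) h
      exact ⟨A, B, fun _ => ⟨h1, h2, h3⟩⟩
    · exact ⟨0, 0, fun h' => absurd h' h⟩
  choose SA SB hS using hs
  let P : ℕ → M.ring × M.ring := fun k => Nat.rec (0, 0) (fun k ab =>
    (ab.1 + SA k (f - (M.Phi * ab.1 + M.Psi * ab.2)),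
      ab.2 + SB k (f - (M.Phi * ab.1 + M.Psi * ab.2)))) k
  let r : ℕ → M.ring := fun k => f - (M.Phi * (P k).1 + M.Psi * (P k).2)
  have hP : ∀ k, (P (k + 1)).1 = (P k).1 + SA k (r k) ∧ (P (k + 1)).2 = (P k).2 + SB k (r k) :=
    fun k => ⟨rfl, rfl⟩
  have hr : ∀ k, r k ∈ M.J (n + k) := by
    intro k
    induction k with
    | zero =>
      show f - (M.Phi * 0 + M.Psi * 0) ∈ _
      simpa using hf
    | succ k ih =>
      have e : r (k + 1) = r k - (M.Phi * SA k (r k) + M.Psi * SB k (r k)) := by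
        simp only [r, hP]; ring
      rw [e]; exact (hS k (r k) ih).2.2
  have hP7 : ∀ k, (P k).1 ∈ M.J (n - 7) ∧ (P k).2 ∈ M.J (n - 7) := by
    intro k
    induction k with
    | zero => exact ⟨Ideal.zero_mem _, Ideal.zero_mem _⟩
    | succ k ih =>
      rw [(hP k).1, (hP k).2]
      exact ⟨Ideal.add_mem _ ih.1 (M.J_anti (by omega) (hS k (r k) (hr k)).1),
        Ideal.add_mem _ ih.2 (M.J_anti (by omega) (hS k (r k) (hr k)).2.1)⟩
  obtain ⟨A, hA⟩ := M.exists_limit (fun k => (P k).1) fun k => by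
    simp only [hP, add_sub_cancel_left]; exact M.J_anti (by omega) (hS k (r k) (hr k)).1
  obtain ⟨B, hB⟩ := M.exists_limit (fun k => (P k).2) fun k => by
    simp only [hP, add_sub_cancel_left]; exact M.J_anti (by omega) (hS k (r k) (hr k)).2.1
  refine ⟨A, ?_, B, ?_, sub_eq_zero.1 (M.eq_zero_of_mem_J fun k => ?_)⟩
  · have := Ideal.add_mem _ (hA (n - 7)) (hP7 (n - 7)).1
    rwa [sub_add_cancel] at this
  · have := Ideal.add_mem _ (hB (n - 7)) (hP7 (n - 7)).2
    rwa [sub_add_cancel] at this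
  · have e : f - (M.Phi * A + M.Psi * B)
        = r k - (M.Phi * (A - (P k).1) + M.Psi * (B - (P k).2)) := by
      simp only [r]; ring
    rw [e]
    exact Ideal.sub_mem _ (M.J_anti (by omega) (hr k))
      (Ideal.add_mem _ (Ideal.mul_mem_left _ _ (hA k)) (Ideal.mul_mem_left _ _ (hB k)))

theorem Phi_mem : M.Phi ∈ IsLocalRing.maximalIdeal M.ring := by
  rw [M.maximalIdeal_eq]; exact M.Phi_spec.1.mono (by omega)

theorem Psi_mem : M.Psi ∈ IsLocalRing.maximalIdeal M.ring := by
  rw [M.maximalIdeal_eq]; exact M.Psi_spec.1.mono (by omega)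

theorem J_le_span_pow (k : ℕ) : M.J (21 + 7 * k) ≤ Ideal.span {M.Phi, M.Psi} ^ (k + 1) := by
  induction k with
  | zero =>
    intro f hf
    obtain ⟨A, -, B, -, rfl⟩ := M.J_split (by omega) hf
    rw [pow_one]
    exact Ideal.add_mem _ (Ideal.mul_mem_right _ _ (Ideal.subset_span (by simp)))
      (Ideal.mul_mem_right _ _ (Ideal.subset_span (by simp)))
  | succ k ih =>
    intro f hf
    obtain ⟨A, hA, B, hB, rfl⟩ := M.J_split (by omega) hf
    have e : 21 + 7 * (k + 1) - 7 = 21 + 7 * k := by omega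
    rw [e] at hA hB
    rw [pow_succ' _ (k + 1)]
    exact Ideal.add_mem _ (Ideal.mul_mem_mul (Ideal.subset_span (by simp)) (ih hA))
      (Ideal.mul_mem_mul (Ideal.subset_span (by simp)) (ih hB))

theorem J_le_maximalIdeal_pow (n : ℕ) :
    M.J (21 + 7 * n) ≤ IsLocalRing.maximalIdeal M.ring ^ n := by
  refine le_trans (M.J_le_span_pow n) (le_trans (Ideal.pow_le_pow_right (Nat.le_succ n)) ?_)
  exact Ideal.pow_right_mono (Ideal.span_le.2 (by
    rintro x (rfl | rfl)
    exacts [M.Phi_mem, M.Psi_mem])) n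

theorem isAdicComplete :
    IsAdicComplete (R := M.ring) (IsLocalRing.maximalIdeal M.ring) M.ring where
  haus' x hx := by
    refine M.eq_zero_of_mem_J fun n => M.maximalIdeal_pow_le n ?_
    have := hx n
    rwa [SModEq.sub_mem, sub_zero, smul_eq_mul, Ideal.mul_top] at this
  prec' F hF := by
    simp only [SModEq.sub_mem, smul_eq_mul, Ideal.mul_top] at hF ⊢
    obtain ⟨L, hL⟩ := M.exists_limit F fun k => by
      have := M.maximalIdeal_pow_le k (hF (Nat.le_succ k))
      rw [← neg_sub]; exact Ideal.neg_mem_iff _ |>.2 this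
    refine ⟨L, fun n => ?_⟩
    have e : F n - L = (F n - F (21 + 7 * n)) - (L - F (21 + 7 * n)) := by ring
    rw [e]
    exact Ideal.sub_mem _ (hF (by omega)) (M.J_le_maximalIdeal_pow n (hL (21 + 7 * n)))

end Model

end

end P266
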