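import Vale.Agent.P266.Ring.Basic

/-!
P266: the ring is a finite module over the power series in the lifts of `z^7` and `w^7`.
-/

namespace P266

set_option maxSynthPendingDepth 4

open Finset

noncomputable section

/-- Power series in two variables. -/
abbrev PS2 : Type := MvPowerSeries (Fin 2) ℂ

/-- The ideal of the two variables. -/
def varIdeal : Ideal PS2 := Ideal.span (Set.range MvPowerSeries.X)

theorem PS2_decomp (F : PS2) : ∃ (c : ℂ) (A B : PS2),
    F = MvPowerSeries.C c + MvPowerSeries.X 0 * A + MvPowerSeries.X 1 * B := by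
  classical
  let F0 : PS2 := fun m => if m 0 = 0 then MvPowerSeries.coeff m F else 0
  have hF0 : ∀ m, MvPowerSeries.coeff m F0 = if m 0 = 0 then MvPowerSeries.coeff m F else 0 :=
    fun m => rfl
  obtain ⟨A, hA⟩ : (MvPowerSeries.X 0 : PS2) ∣ F - F0 := MvPowerSeries.X_dvd_iff.2 fun m hm => by
    rw [map_sub, hF0, if_pos hm, sub_self]
  obtain ⟨B, hB⟩ : (MvPowerSeries.X 1 : PS2) ∣
      F0 - MvPowerSeries.C (MvPowerSeries.constantCoeff F) :=
    MvPowerSeries.X_dvd_iff.2 fun m hm => by
      rw [map_sub, hF0, MvPowerSeries.coeff_C]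
      by_cases h0 : m 0 = 0
      · have e : m = 0 := Finsupp.ext fun i => by fin_cases i <;> assumption
        subst e
        simp
      · have e : m ≠ 0 := fun e => h0 (by simp [e])
        simp [h0, e]
  exact ⟨MvPowerSeries.constantCoeff F, A, B, by linear_combination hA + hB⟩

theorem mem_varIdeal_pow_pi {n N : ℕ} {f : Fin N → PS2} :
    f ∈ (varIdeal ^ n • ⊤ : Submodule PS2 (Fin N → PS2)) ↔ ∀ i, f i ∈ varIdeal ^ n := by
  classical
  constructor
  · intro h
    induction h using Submodule.smul_induction_on' with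
    | smul r hr v _ => exact fun i => Ideal.mul_mem_right _ _ hr
    | add a _ b _ ha hb => exact fun i => Ideal.add_mem _ (ha i) (hb i)
  · intro h
    have e : f = ∑ i, f i • Pi.single i (1 : PS2) := by
      funext j
      simp [Finset.sum_apply, Pi.single_apply]
    rw [e]
    exact Submodule.sum_mem _ fun i _ => Submodule.smul_mem_smul (h i) Submodule.mem_top

instance isPrecomplete_pi (N : ℕ) : IsPrecomplete varIdeal (Fin N → PS2) where
  prec' f hf := by
    have hc : IsAdicComplete varIdeal PS2 := inferInstanceAs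
      (IsAdicComplete (Ideal.span (Set.range MvPowerSeries.X) : Ideal PS2) PS2)
    simp only [SModEq.sub_mem, mem_varIdeal_pow_pi] at hf ⊢
    have key : ∀ i, ∃ L : PS2, ∀ n, f n i - L ∈ varIdeal ^ n := fun i => by
      obtain ⟨L, hL⟩ := hc.toIsPrecomplete.prec (f := fun n => f n i) fun {m n} hmn => by
        rw [SModEq.sub_mem, smul_eq_mul, Ideal.mul_top]; exact hf hmn i
      refine ⟨L, fun n => ?_⟩
      have := hL n
      rwa [SModEq.sub_mem, smul_eq_mul, Ideal.mul_top] at this
    choose L hL using key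
    exact ⟨L, fun n i => hL i n⟩

namespace Model

variable (M : Model)

theorem hasSubst_pair :
    MvPowerSeries.HasSubst (S := K) (τ := Unit) ![(M.Phi : S), (M.Psi : S)] := by
  refine MvPowerSeries.hasSubst_of_constantCoeff_zero fun i => ?_
  show PowerSeries.constantCoeff (![(M.Phi : S), (M.Psi : S)] i) = 0
  rw [← PowerSeries.coeff_zero_eq_constantCoeff_apply]
  fin_cases i
  · exact low_S_iff.1 M.Phi_spec.1 0 (by omega)
  · exact low_S_iff.1 M.Psi_spec.1 0 (by omega)

/-- Substitution of the lifts, into series. -/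
def evS : PS2 →ₐ[ℂ] S := MvPowerSeries.substAlgHom M.hasSubst_pair

theorem evS_X (i : Fin 2) : M.evS (MvPowerSeries.X i) = ![(M.Phi : S), (M.Psi : S)] i :=
  MvPowerSeries.substAlgHom_X M.hasSubst_pair i

theorem evS_X0 : M.evS (MvPowerSeries.X 0) = (M.Phi : S) := M.evS_X 0

theorem evS_X1 : M.evS (MvPowerSeries.X 1) = (M.Psi : S) := M.evS_X 1

theorem evS_C (c : ℂ) : M.evS (MvPowerSeries.C c) = algebraMap ℂ S c := by
  rw [MvPowerSeries.c_eq_algebraMap, AlgHom.commutes]

theorem evS_approx (N : ℕ) : ∀ F : PS2, ∃ g ∈ M.ring, Low N (M.evS F - g) := by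
  induction N with
  | zero => exact fun F => ⟨0, M.ring.zero_mem, low_zero _⟩
  | succ N ih =>
    intro F
    obtain ⟨c, A, B, rfl⟩ := PS2_decomp F
    obtain ⟨a, ha, hA⟩ := ih A
    obtain ⟨b, hb, hB⟩ := ih B
    refine ⟨algebraMap ℂ S c + (M.Phi : S) * a + (M.Psi : S) * b, M.ring.add_mem (M.ring.add_mem
      (M.ring.algebraMap_mem c) (M.ring.mul_mem M.Phi.2 ha)) (M.ring.mul_mem M.Psi.2 hb), ?_⟩
    have e : M.evS (MvPowerSeries.C c + MvPowerSeries.X 0 * A + MvPowerSeries.X 1 * B)
        - (algebraMap ℂ S c + (M.Phi : S) * a + (M.Psi : S) * b)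
        = (M.Phi : S) * (M.evS A - a) + (M.Psi : S) * (M.evS B - b) := by
      rw [map_add, map_add, map_mul, map_mul, M.evS_C, M.evS_X0, M.evS_X1]
      ring
    rw [e]
    exact ((low_mul M.Phi_spec.1 hA).add (low_mul M.Psi_spec.1 hB)).mono (by omega)

theorem evS_mem (F : PS2) : M.evS F ∈ M.ring := M.mem_ring_of_approx fun N => M.evS_approx N F

/-- Substitution of the lifts of `z^7`, `w^7`. -/
def ev : PS2 →ₐ[ℂ] M.ring := M.evS.codRestrict M.ring M.evS_mem

theorem coe_ev (F : PS2) : (M.ev F : S) = M.evS F := rfl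

theorem ev_X0 : M.ev (MvPowerSeries.X 0) = M.Phi := Subtype.ext M.evS_X0

theorem ev_X1 : M.ev (MvPowerSeries.X 1) = M.Psi := Subtype.ext M.evS_X1

/-- The coefficients below `n`. -/
def headL (n : ℕ) : M.ring →ₗ[ℂ] (Fin n → K) where
  toFun f i := PowerSeries.coeff (i : ℕ) (f : S)
  map_add' f g := funext fun i => by simp
  map_smul' c f := funext fun i => by simp

theorem headL_fg (n : ℕ) : (LinearMap.range (M.headL n)).FG := by
  induction n with
  | zero =>
    have : LinearMap.range (M.headL 0) = ⊥ := by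
      exact eq_bot_iff.2 fun v _ => (Submodule.mem_bot ℂ).2 (Subsingleton.elim v 0)
    rw [this]; exact Submodule.fg_bot
  | succ n ih =>
    let π : (Fin (n + 1) → K) →ₗ[ℂ] (Fin n → K) := LinearMap.funLeft ℂ K Fin.castSucc
    have hπ : π.comp (M.headL (n + 1)) = M.headL n := rfl
    refine Submodule.fg_of_fg_map_of_fg_inf_ker π ?_ ?_
    · rw [← LinearMap.range_comp, hπ]; exact ih
    · classical
      let V : Submodule ℂ (Fin (n + 1) → K) := Submodule.span ℂ
        ((fun t : Fin 5 × Fin 5 × Fin (n + 1) =>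
          Pi.single (Fin.last n) (mono t.1 t.2.1 ((t.2.2 : ℕ) : ℤ))) '' Set.univ)
      have hV : V.FG := Submodule.fg_span (Set.toFinite _)
      have : IsNoetherian ℂ V := isNoetherian_of_fg_of_noetherian _ hV
      refine Submodule.FG.of_le (T := V) hV ?_
      rintro v ⟨⟨f, rfl⟩, hv⟩
      have hlow : Low n (f : S) := low_S_iff.2 fun m hm => congrFun hv ⟨m, hm⟩
      have hv' : M.headL (n + 1) f = Pi.single (Fin.last n) (PowerSeries.coeff n (f : S)) := by
        funext i
        rcases eq_or_ne i (Fin.last n) with rfl | hi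
        · rw [Pi.single_eq_same]; rfl
        · rw [Pi.single_eq_of_ne hi]
          exact low_S_iff.1 hlow i (Fin.val_lt_last hi)
      rw [hv']
      obtain ⟨c, -, hc⟩ := reg_mem_G (f.2.1 n) (M.lowest_reg f.2 hlow)
      have h1 : ∀ x : K, (Pi.single (Fin.last n) x : Fin (n + 1) → K)
          = LinearMap.single ℂ (fun _ => K) (Fin.last n) x := fun x => rfl
      rw [h1, hc]
      simp only [map_sum]
      refine Submodule.sum_mem _ fun i _ => Submodule.sum_mem _ fun j _ =>
        Submodule.sum_mem _ fun k hk => ?_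
      rw [map_smul]
      refine Submodule.smul_mem _ _ (Submodule.subset_span ⟨(i, j, ⟨k, ?_⟩), trivial, rfl⟩)
      simpa using hk

/-- Finitely many elements span the ring modulo `J 21`. -/
theorem exists_gens : ∃ (N : ℕ) (e : Fin N → M.ring),
    ∀ f : M.ring, ∃ c : Fin N → ℂ, f - ∑ t, algebraMap ℂ M.ring (c t) * e t ∈ M.J 21 := by
  obtain ⟨N, s, hs⟩ := Submodule.fg_iff_exists_fin_generating_family.1 (M.headL_fg 21)
  have hmem : ∀ t, s t ∈ LinearMap.range (M.headL 21) := fun t =>
    hs ▸ Submodule.subset_span ⟨t, rfl⟩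
  choose e he using hmem
  refine ⟨N, e, fun f => ?_⟩
  have hf : M.headL 21 f ∈ Submodule.span ℂ (Set.range s) := hs ▸ ⟨f, rfl⟩
  obtain ⟨c, hc⟩ := Submodule.mem_span_range_iff_exists_fun ℂ |>.1 hf
  refine ⟨c, low_S_iff.2 fun m hm => ?_⟩
  have h := congrFun (show M.headL 21 (f - ∑ t, algebraMap ℂ M.ring (c t) * e t) = 0 by
    simp only [← Algebra.smul_def, map_sub, map_sum, map_smul, he, hc, sub_self]) ⟨m, hm⟩
  exact h

/-- The ring is a finite module over the series in the two lifts. -/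
theorem finite_over : @Module.Finite PS2 M.ring _ _ M.ev.toRingHom.toAlgebra.toModule := by
  let := M.ev.toRingHom.toAlgebra
  have hsm : ∀ (r : PS2) (x : M.ring), r • x = M.ev r * x := fun r x => rfl
  obtain ⟨N, e, he⟩ := M.exists_gens
  let φ : (Fin N → PS2) →ₗ[PS2] M.ring := Fintype.linearCombination PS2 e
  have hφ : ∀ G, φ G = ∑ t, G t • e t := fun G => Fintype.linearCombination_apply PS2 e G
  have hJ : ∀ (n : ℕ) (x : M.ring), x ∈ (varIdeal ^ n • ⊤ : Submodule PS2 M.ring) → x ∈ M.J n := by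
    intro n x hx
    induction hx using Submodule.smul_induction_on' with
    | smul r hr v _ =>
      rw [hsm]
      refine Ideal.mul_mem_right _ _ (M.maximalIdeal_pow_le n ?_)
      have hmap : varIdeal.map M.ev.toRingHom ≤ IsLocalRing.maximalIdeal M.ring := by
        rw [varIdeal, Ideal.map_span, Ideal.span_le]
        rintro _ ⟨_, ⟨i, rfl⟩, rfl⟩
        fin_cases i
        · show M.ev (MvPowerSeries.X 0) ∈ _
          rw [M.ev_X0]; exact M.Phi_mem
        · show M.ev (MvPowerSeries.X 1) ∈ _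
          rw [M.ev_X1]; exact M.Psi_mem
      have h' := Ideal.mem_map_of_mem M.ev.toRingHom hr
      rw [Ideal.map_pow] at h'
      exact Ideal.pow_right_mono hmap n h'
    | add a _ b _ ha hb => exact Ideal.add_mem _ ha hb
  have : IsHausdorff varIdeal M.ring := ⟨fun x hx => M.eq_zero_of_mem_J fun n => hJ n x (by
    have := hx n
    rwa [SModEq.sub_mem, sub_zero] at this)⟩
  refine Module.Finite.of_surjective φ (surjective_of_mkQ_comp_surjective (I := varIdeal) fun z => ?_)
  obtain ⟨y, rfl⟩ := Submodule.mkQ_surjective _ z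
  obtain ⟨c, hc⟩ := he y
  refine ⟨fun t => MvPowerSeries.C (c t), (Submodule.Quotient.eq _).2 ?_⟩
  obtain ⟨A, -, B, -, hAB⟩ := M.J_split le_rfl hc
  have e1 : φ (fun t => MvPowerSeries.C (c t)) = ∑ t, algebraMap ℂ M.ring (c t) * e t := by
    rw [hφ]
    refine sum_congr rfl fun t _ => ?_
    rw [hsm, MvPowerSeries.c_eq_algebraMap, AlgHom.commutes]
  have e2 : φ (fun t => MvPowerSeries.C (c t)) - y
      = (MvPowerSeries.X 0 : PS2) • (-A) + (MvPowerSeries.X 1 : PS2) • (-B) := by
    rw [e1, hsm, hsm, M.ev_X0, M.ev_X1]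
    linear_combination -hAB
  rw [e2]
  exact Submodule.add_mem _ (Submodule.smul_mem_smul (Ideal.subset_span ⟨0, rfl⟩) Submodule.mem_top)
    (Submodule.smul_mem_smul (Ideal.subset_span ⟨1, rfl⟩) Submodule.mem_top)

theorem isNoetherianRing : IsNoetherianRing M.ring := by
  let := M.ev.toRingHom.toAlgebra
  have : Module.Finite PS2 M.ring := M.finite_over
  exact IsNoetherianRing.of_finite PS2 M.ring

/-- The ring is integral over power series in two lifts. -/
theorem finite_ps : ∃ ev : MvPowerSeries (Fin 2) ℂ →ₐ[ℂ] M.ring,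
    (∀ f : M.ring, ∃ P : Polynomial (MvPowerSeries (Fin 2) ℂ), P.Monic ∧
      Polynomial.eval₂ ev.toRingHom f P = 0) ∧
    Low 7 (ev (MvPowerSeries.X 0) : S) ∧
    PowerSeries.coeff 7 (ev (MvPowerSeries.X 0) : S) = 1 ∧
    Low 7 (ev (MvPowerSeries.X 1) : S) ∧
    PowerSeries.coeff 7 (ev (MvPowerSeries.X 1) : S) = wpow 7 := by
  refine ⟨M.ev, fun f => ?_, ?_, ?_, ?_, ?_⟩
  · let := M.ev.toRingHom.toAlgebra
    have : Module.Finite PS2 M.ring := M.finite_over
    exact IsIntegral.of_finite PS2 f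
  all_goals simp only [M.ev_X0, M.ev_X1]
  exacts [M.Phi_spec.1, M.Phi_spec.2, M.Psi_spec.1, M.Psi_spec.2]

end Model

end

end P266
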